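import Vale.Agent.P139Z.Defs

/-!
Block PERSIST, part 1: embedding of the Sobolev space into the Wiener algebra.
-/

open Set Filter Topology MeasureTheory Complex
open scoped NNReal ENNReal ComplexConjugate ContDiff

namespace Vale.Agent.P139Z.Persist

open Vale.Agent.P139 Vale.Agent.P139.A Vale.Agent.P139.A.WA

variable {d k : ℕ}

theorem summable_one_add_sq {s : ℝ} (hs : 1 < 2 * s) :
    Summable fun m : ℤ => (1 + (m : ℝ) ^ 2) ^ (-s) := by
  have h1 := Real.summable_abs_int_rpow hs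
  have h2 : Summable fun m : ℤ => if m = 0 then (1 : ℝ) else 0 := (hasSum_ite_eq 0 1).summable
  refine Summable.of_nonneg_of_le (fun m => by positivity) (fun m => ?_) (h1.add h2)
  by_cases hm : m = 0
  · subst hm
    have : (0 : ℝ) ≤ |((0 : ℤ) : ℝ)| ^ (-(2 * s)) := by positivity
    simp only [Int.cast_zero, ne_eq, OfNat.ofNat_ne_zero, not_false_eq_true, zero_pow, add_zero,
      Real.one_rpow, if_true] at this ⊢
    linarith
  · simp only [hm, if_false, add_zero]
    have h3 : 0 < |(m : ℝ)| := by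
      rw [abs_pos]; exact_mod_cast hm
    have h4 : |(m : ℝ)| ^ (-(2 * s)) = ((m : ℝ) ^ 2) ^ (-s) := by
      rw [← sq_abs, ← Real.rpow_natCast, ← Real.rpow_mul h3.le]
      congr 1
      push_cast
      ring
    rw [h4]
    have h5 : 0 < (m : ℝ) ^ 2 := by rw [← sq_abs]; positivity
    exact Real.rpow_le_rpow_of_nonpos h5 (by linarith) (by linarith)

theorem summable_sob_inv {k' : ℕ} (hk' : d < 2 * k') :
    Summable fun n : Lat d => ((1 + sqNorm n) ^ k')⁻¹ := by
  rcases Nat.eq_zero_or_pos d with hd | hd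
  · subst hd
    exact Summable.of_finite
  have hd' : (0 : ℝ) < d := by exact_mod_cast hd
  set s : ℝ := k' / d with hs
  have hs1 : 1 < 2 * s := by
    rw [hs, ← mul_div_assoc, lt_div_iff₀ hd', one_mul]
    exact_mod_cast hk'
  have hs0 : 0 ≤ s := by linarith
  refine Summable.of_nonneg_of_le (fun n => ?_) (fun n => ?_)
    (summable_prod_fin (d := d) (f := fun m => (1 + (m : ℝ) ^ 2) ^ (-s)) (fun m => by positivity)
      (summable_one_add_sq hs1))
  · have := sqNorm_nonneg n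
    positivity
  · have h0 := sqNorm_nonneg n
    have h1 : ((1 + sqNorm n) ^ k')⁻¹ = ∏ _j : Fin d, (1 + sqNorm n) ^ (-s) := by
      rw [Finset.prod_const, Finset.card_univ, Fintype.card_fin, ← Real.rpow_natCast _ d,
        ← Real.rpow_mul (by linarith), ← Real.rpow_natCast, ← Real.rpow_neg (by linarith)]
      congr 1
      rw [hs]
      field_simp
    rw [h1]
    refine Finset.prod_le_prod (fun j _ => by positivity) (fun j _ => ?_)
    refine Real.rpow_le_rpow_of_nonpos (by positivity) ?_ (by linarith)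
    have : (n j : ℝ) ^ 2 ≤ sqNorm n :=
      Finset.single_le_sum (f := fun j => ((n j : ℝ)) ^ 2) (fun _ _ => sq_nonneg _)
        (Finset.mem_univ j)
    linarith

theorem norm_le_amgm (k' : ℕ) {ε : ℝ} (hε : 0 < ε) (n : Lat d) (z : ℂ) :
    ‖z‖ ≤ ε * ((1 + sqNorm n) ^ k')⁻¹ + ε⁻¹ * ((1 + sqNorm n) ^ k' * ‖z‖ ^ 2) := by
  have h0 := sqNorm_nonneg n
  have hA : 0 < (1 + sqNorm n) ^ k' := by positivity
  set A := (1 + sqNorm n) ^ k'
  have h1 : ε * A⁻¹ + ε⁻¹ * (A * ‖z‖ ^ 2) - ‖z‖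
      = (ε * A)⁻¹ * ((ε - A * ‖z‖) ^ 2 + ε * (A * ‖z‖)) := by
    field_simp
    ring
  have h2 : 0 ≤ (ε * A)⁻¹ * ((ε - A * ‖z‖) ^ 2 + ε * (A * ‖z‖)) := by positivity
  linarith

theorem summable_of_memSobolev {k' : ℕ} (hk' : d < 2 * k') {a : Lat d → ℂ}
    (ha : MemSobolev k' a) : Summable fun n => ‖a n‖ :=
  Summable.of_nonneg_of_le (fun _ => norm_nonneg _) (fun n => norm_le_amgm k' one_pos n (a n))
    (((summable_sob_inv hk').mul_left _).add (Summable.mul_left _ ha))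

theorem tsum_norm_le {k' : ℕ} (hk' : d < 2 * k') {a : Lat d → ℂ} (ha : MemSobolev k' a) {ε : ℝ}
    (hε : 0 < ε) :
    ∑' n, ‖a n‖ ≤ ε * (∑' n : Lat d, ((1 + sqNorm n) ^ k')⁻¹) + ε⁻¹ * sobolevSq k' a := by
  have h := (summable_of_memSobolev hk' ha).tsum_le_tsum (fun n => norm_le_amgm k' hε n (a n))
    (((summable_sob_inv hk').mul_left _).add (Summable.mul_left _ ha))
  refine h.trans (le_of_eq ?_)
  rw [((summable_sob_inv hk').mul_left _).tsum_add (Summable.mul_left _ ha), tsum_mul_left,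
    tsum_mul_left]
  rfl

theorem memSobolev_sub {k' : ℕ} {a b : Lat d → ℂ} (ha : MemSobolev k' a) (hb : MemSobolev k' b) :
    MemSobolev k' fun n => a n - b n := by
  refine Summable.of_nonneg_of_le (fun n => ?_) (fun n => ?_)
    ((Summable.mul_left 2 ha).add (Summable.mul_left 2 hb))
  · have := sqNorm_nonneg n
    positivity
  · have h0 := sqNorm_nonneg n
    have hA : 0 < (1 + sqNorm n) ^ k' := by positivity
    have h1 : ‖a n - b n‖ ^ 2 ≤ 2 * ‖a n‖ ^ 2 + 2 * ‖b n‖ ^ 2 := by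
      have h2 := norm_sub_le (a n) (b n)
      have h3 : ‖a n - b n‖ ^ 2 ≤ (‖a n‖ + ‖b n‖) ^ 2 := by gcongr
      nlinarith [sq_nonneg (‖a n‖ - ‖b n‖)]
    calc (1 + sqNorm n) ^ k' * ‖a n - b n‖ ^ 2
        ≤ (1 + sqNorm n) ^ k' * (2 * ‖a n‖ ^ 2 + 2 * ‖b n‖ ^ 2) := by gcongr
      _ = _ := by ring

/-- A solution is continuous with values in absolutely summable sequences. -/
theorem tendsto_tsum_norm {p k' : ℕ} (hk' : d < 2 * k') {T : ℝ} {u : ℝ → Lat d → ℂ}
    (hu : IsSolution d p k' T u) {t : ℝ} (ht : t ∈ Icc 0 T) :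
    Tendsto (fun s => ∑' n, ‖u s n - u t n‖) (𝓝[Icc 0 T] t) (𝓝 0) := by
  set S : ℝ := ∑' n : Lat d, ((1 + sqNorm n) ^ k')⁻¹ with hS
  have hS0 : 0 ≤ S := tsum_nonneg fun n => by
    have := sqNorm_nonneg n
    positivity
  rw [Metric.tendsto_nhds]
  intro η hη
  set ε : ℝ := η / (2 * (S + 1)) with hε
  have hε0 : 0 < ε := by positivity
  have h1 := (hu.cont t ht).const_mul ε⁻¹
  rw [mul_zero] at h1
  have h2 := h1.eventually (gt_mem_nhds (by positivity : (0 : ℝ) < η / 2))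
  filter_upwards [h2, self_mem_nhdsWithin] with s hs hsI
  rw [Real.dist_eq, sub_zero, abs_of_nonneg (tsum_nonneg fun _ => norm_nonneg _)]
  have h3 := tsum_norm_le hk' (memSobolev_sub (hu.mem s hsI) (hu.mem t ht)) hε0
  have h4 : ε * S ≤ η / 2 := by
    rw [hε, div_mul_eq_mul_div, div_le_div_iff₀ (by positivity) (by positivity)]
    nlinarith
  rw [← hS] at h3
  linarith

end Vale.Agent.P139Z.Persist
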