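import Vale.Agent.P139Z.Defs

/-!
Block PERSIST, part 2: bounded multipliers and the tame estimate for the nonlinearity.
-/

open Set Filter Topology MeasureTheory Complex
open scoped NNReal ENNReal ComplexConjugate ContDiff

namespace Vale.Agent.P139Z.Persist

open Vale.Agent.P139 Vale.Agent.P139.A Vale.Agent.P139.A.WA

variable {d k : ℕ}

/-- The truncated weight. -/
noncomputable def tw (j : ℕ) (M : ℝ≥0) (n : Lat d) : ℝ := min (W j n) M

theorem tw_nonneg (j : ℕ) (M : ℝ≥0) (n : Lat d) : 0 ≤ tw j M n := le_min (W_pos n).le M.2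

theorem tw_le (j : ℕ) (M : ℝ≥0) (n : Lat d) : tw j M n ≤ M := min_le_right _ _

theorem tw_le_W (j : ℕ) (M : ℝ≥0) (n : Lat d) : tw j M n ≤ W j n := min_le_left _ _

theorem tw_neg (j : ℕ) (M : ℝ≥0) (n : Lat d) : tw j M (-n) = tw j M n := by
  unfold tw; rw [W_neg]

theorem W_add_le_of_le (j : ℕ) {a b : Lat d} (h : ‖b‖ ≤ ‖a‖) : W j (a + b) ≤ 2 ^ j * W j a := by
  unfold W
  rw [← mul_pow]
  have := norm_add_le a b
  have := norm_nonneg a
  gcongr
  linarith

theorem tw_add_le_of_le (j : ℕ) (M : ℝ≥0) {a b : Lat d} (h : ‖b‖ ≤ ‖a‖) :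
    tw j M (a + b) ≤ 2 ^ j * tw j M a := by
  have h1 := W_add_le_of_le j h
  have h2 : (1 : ℝ) ≤ 2 ^ j := one_le_pow₀ (by norm_num)
  have h3 : (0 : ℝ) ≤ M := M.2
  unfold tw
  rw [mul_min_of_nonneg _ _ (by positivity)]
  exact min_le_min h1 (by nlinarith)

theorem tw_add_le (j : ℕ) (M : ℝ≥0) (a b : Lat d) :
    tw j M (a + b) ≤ 2 ^ j * (tw j M a + tw j M b) := by
  have ha := tw_nonneg j M a
  have hb := tw_nonneg j M b
  rcases le_total ‖b‖ ‖a‖ with h | h
  · refine (tw_add_le_of_le j M h).trans ?_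
    gcongr
    linarith
  · rw [add_comm a b]
    refine (tw_add_le_of_le j M h).trans ?_
    gcongr
    linarith

/-- The multiplier by the truncated weight. -/
noncomputable def P (j : ℕ) (M : ℝ≥0) : WA d k →L[ℝ] WA d k :=
  pairOp (fun n => (tw j M n : ℂ)) (fun _ => 0) M
    (fun n => by rw [Complex.norm_real, Real.norm_of_nonneg (tw_nonneg j M n)]; exact tw_le j M n)
    (fun _ => by rw [norm_zero]; exact M.2)

theorem coef_P (j : ℕ) (M : ℝ≥0) (a : WA d k) (n : Lat d) :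
    coef (P j M a) n = tw j M n * coef a n := by
  unfold P
  rw [coef_pairOp, zero_mul, add_zero]

theorem norm_coef_P (j : ℕ) (M : ℝ≥0) (a : WA d k) (n : Lat d) :
    ‖coef (P j M a) n‖ = tw j M n * ‖coef a n‖ := by
  rw [coef_P, norm_mul, Complex.norm_real, Real.norm_of_nonneg (tw_nonneg j M n)]

theorem norm_congr {a b : WA d k} (h : ∀ n, ‖coef a n‖ = ‖coef b n‖) : ‖a‖ = ‖b‖ := by
  rw [WA.norm_eq, WA.norm_eq]
  exact tsum_congr fun n => by rw [h n]

theorem P_star (j : ℕ) (M : ℝ≥0) (a : WA d k) : P j M (star a) = star (P j M a) := by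
  ext n
  rw [coef_P, star_eq, star_eq, coef_conjL, coef_conjL, coef_P, tw_neg, map_mul,
    Complex.conj_ofReal]

theorem tsum_shear (a b : WA d k) :
    ∑' n, ∑' m, (W k m * ‖coef a m‖) * (W k (n - m) * ‖coef b (n - m)‖) = ‖a‖ * ‖b‖ := by
  rw [← (summable_shear a b).tsum_prod, WA.norm_eq a, WA.norm_eq b]
  rw [Summable.tsum_mul_tsum a.summable b.summable
    (a.summable.mul_of_nonneg b.summable
      (fun m => mul_nonneg (W_pos m).le (norm_nonneg _))
      (fun m => mul_nonneg (W_pos m).le (norm_nonneg _)))]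
  exact (shear d).tsum_eq
    (fun q : Lat d × Lat d => (W k q.1 * ‖coef a q.1‖) * (W k q.2 * ‖coef b q.2‖))

theorem norm_P_mul (j : ℕ) (M : ℝ≥0) (a b : WA d k) :
    ‖P j M (a * b)‖ ≤ 2 ^ j * (‖P j M a‖ * ‖b‖ + ‖a‖ * ‖P j M b‖) := by
  have s1 := summable_shear (P j M a) b
  have s2 := summable_shear a (P j M b)
  have h1 : ∀ n, W k n * ‖coef (P j M (a * b)) n‖ ≤ 2 ^ j *
      (∑' m, (W k m * ‖coef (P j M a) m‖) * (W k (n - m) * ‖coef b (n - m)‖)
        + ∑' m, (W k m * ‖coef a m‖) * (W k (n - m) * ‖coef (P j M b) (n - m)‖)) := by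
    intro n
    rw [← (s1.prod_factor n).tsum_add (s2.prod_factor n), ← tsum_mul_left, norm_coef_P, coef_mul]
    have h2 : tw j M n * (W k n * ‖∑' m, coef a m * coef b (n - m)‖) ≤
        tw j M n * ∑' m, (W k m * ‖coef a m‖) * (W k (n - m) * ‖coef b (n - m)‖) :=
      mul_le_mul_of_nonneg_left (W_conv_le a b n) (tw_nonneg j M n)
    rw [← tsum_mul_left] at h2
    rw [mul_left_comm]
    refine h2.trans (Summable.tsum_le_tsum (fun m => ?_)
      (((summable_shear a b).prod_factor n).mul_left _)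
      (((s1.prod_factor n).add (s2.prod_factor n)).mul_left _))
    have h3 := tw_add_le j M m (n - m)
    rw [add_sub_cancel] at h3
    rw [norm_coef_P, norm_coef_P]
    have h4 : 0 ≤ (W k m * ‖coef a m‖) * (W k (n - m) * ‖coef b (n - m)‖) :=
      mul_nonneg (mul_nonneg (W_pos _).le (norm_nonneg _))
        (mul_nonneg (W_pos _).le (norm_nonneg _))
    calc _ ≤ (2 ^ j * (tw j M m + tw j M (n - m))) *
          ((W k m * ‖coef a m‖) * (W k (n - m) * ‖coef b (n - m)‖)) :=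
          mul_le_mul_of_nonneg_right h3 h4
      _ = _ := by ring
  rw [WA.norm_eq (P j M (a * b))]
  refine ((P j M (a * b)).summable.tsum_le_tsum h1 ((s1.prod.add s2.prod).mul_left _)).trans
    (le_of_eq ?_)
  rw [tsum_mul_left, s1.prod.tsum_add s2.prod, tsum_shear, tsum_shear]

theorem tame_nl (j m : ℕ) {R : ℝ} (hR : 0 ≤ R) : ∃ K : ℝ, 0 ≤ K ∧ ∀ (M : ℝ≥0) (a : WA d k),
    ‖a‖ ≤ R → ‖P j M (nl m a)‖ ≤ K * ‖P j M a‖ := by
  induction m with
  | zero =>
    refine ⟨1, zero_le_one, fun M a _ => ?_⟩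
    simp only [nl, pow_zero, one_mul, le_refl]
  | succ m ih =>
    obtain ⟨K, hK0, hK⟩ := ih
    refine ⟨2 ^ j * (2 ^ j * (2 * R) * R ^ (2 * m + 1) + R ^ 2 * K), by positivity,
      fun M a ha => ?_⟩
    have e : nl (m + 1) a = (a * star a) * nl m a := by
      unfold nl
      ring
    have h1 : ‖P j M (a * star a)‖ ≤ 2 ^ j * (2 * R) * ‖P j M a‖ := by
      refine (norm_P_mul j M a (star a)).trans ?_
      rw [P_star, norm_star, norm_star]
      calc 2 ^ j * (‖P j M a‖ * ‖a‖ + ‖a‖ * ‖P j M a‖)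
          ≤ 2 ^ j * (‖P j M a‖ * R + R * ‖P j M a‖) := by gcongr
        _ = _ := by ring
    have h2 : ‖nl m a‖ ≤ R ^ (2 * m + 1) := (nl_norm_le m a).trans (by gcongr)
    have h3 : ‖a * star a‖ ≤ R ^ 2 := by
      refine (norm_mul_le _ _).trans ?_
      rw [norm_star, ← pow_two]
      gcongr
    rw [e]
    refine (norm_P_mul j M _ _).trans ?_
    calc 2 ^ j * (‖P j M (a * star a)‖ * ‖nl m a‖ + ‖a * star a‖ * ‖P j M (nl m a)‖)
        ≤ 2 ^ j * ((2 ^ j * (2 * R) * ‖P j M a‖) * R ^ (2 * m + 1)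
          + R ^ 2 * (K * ‖P j M a‖)) := by
          gcongr
          exact hK M a ha
      _ = _ := by ring

theorem norm_P_Ug (j : ℕ) (M : ℝ≥0) (t : ℝ) (a : WA d k) : ‖P j M (Ug t a)‖ = ‖P j M a‖ :=
  norm_congr fun n => by rw [norm_coef_P, norm_coef_P, coef_Ug, norm_mul, norm_phase, one_mul]

theorem norm_Ug (t : ℝ) (a : WA d k) : ‖Ug t a‖ = ‖a‖ :=
  norm_congr fun n => by rw [coef_Ug, norm_mul, norm_phase, one_mul]

theorem norm_P_smul (j : ℕ) (M : ℝ≥0) (c : ℂ) (a : WA d k) :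
    ‖P j M (c • a)‖ = ‖c‖ * ‖P j M a‖ := by
  rw [← norm_smul]
  exact norm_congr fun n => by
    rw [norm_coef_P, coef_smul, coef_smul, norm_mul, norm_mul, norm_coef_P]
    ring

theorem continuousOn_Ug_neg {s : Set ℝ} {y : ℝ → WA d k} (hy : ContinuousOn y s) :
    ContinuousOn (fun t => Ug (-t) (y t)) s := by
  refine continuousOn_apply (X := WA d k) (fun t => (Ug (-t)).restrictScalars ℝ) one_pos
    (fun t => ?_) (fun x => ?_) hy
  · refine ContinuousLinearMap.opNorm_le_bound _ zero_le_one fun x => ?_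
    rw [one_mul]
    exact (norm_Ug (-t) x).le
  · exact (continuous_Ug x).comp continuous_neg

theorem continuous_nl (m : ℕ) : Continuous (nl m : WA d k → WA d k) := by
  have : (nl m : WA d k → WA d k) = F m := funext (nl_eq_F m)
  rw [this]
  exact (contDiff_F m).continuous

theorem coef_nl (m : ℕ) (a : WA d k) (n : Lat d) : coef (nl m a) n =
    fourierCoef (fun x => (‖series (coef a) x‖ : ℂ) ^ (2 * m) * series (coef a) x) n := by
  have h1 : (fun x => (‖series (coef a) x‖ : ℂ) ^ (2 * m) * series (coef a) x) =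
      series (coef (F m a)) := by
    funext x
    exact (ev_F m a x).symm
  rw [h1, fourierCoef_series (F m a).summable_norm, nl_eq_F]

end Vale.Agent.P139Z.Persist
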